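import Vale.Agent.P243.Third.Affine
import Vale.Agent.P243.Sym.Main

/-!
Improvements of the one third bound for cylinder coverings of convex bodies in space: an absolute
improvement for all bodies, and 5/12 for centrally symmetric bodies.
-/

namespace Vale.Agent.Results.P243.AboveOneThird

open MeasureTheory Vale.Agent.P243
open scoped ENNReal

theorem result :
    (∃ c : ℝ, 1 / 3 < c ∧ ∀ (K : Set R3), IsCompact K → Convex ℝ K → (interior K).Nonempty →
      ∀ (m : ℕ) (u : Fin m → R3), (∀ i, ‖u i‖ = 1) → ∀ B : ∀ i, Set ↥(orthPlane (u i)),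
        K ⊆ ⋃ i, cylinderOver (orthPlane (u i)) (B i) →
          ENNReal.ofReal c ≤ ∑ i, area (orthPlane (u i)) (B i) / shadowArea (u i) K ∧
          ENNReal.ofReal c * (⨅ (v : R3) (_ : ‖v‖ = 1), shadowArea v K)
            ≤ ∑ i, area (orthPlane (u i)) (B i)) ∧
    ∀ (K : Set R3), IsCompact K → Convex ℝ K → (interior K).Nonempty →
      ∀ o : R3, (∀ x ∈ K, (2 : ℝ) • o - x ∈ K) →
        ∀ (m : ℕ) (u : Fin m → R3), (∀ i, ‖u i‖ = 1) → ∀ B : ∀ i, Set ↥(orthPlane (u i)),
          K ⊆ ⋃ i, cylinderOver (orthPlane (u i)) (B i) →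
            ENNReal.ofReal (5 / 12) ≤ ∑ i, area (orthPlane (u i)) (B i) / shadowArea (u i) K ∧
            ENNReal.ofReal (5 / 12) * (⨅ (v : R3) (_ : ‖v‖ = 1), shadowArea v K)
              ≤ ∑ i, area (orthPlane (u i)) (B i) := by
  have conv : ∀ (c : ℝ≥0∞) (K : Set R3) (m : ℕ) (u : Fin m → R3), (∀ i, ‖u i‖ = 1) →
      ∀ B : ∀ i, Set ↥(orthPlane (u i)),
      c ≤ ∑ i, area (orthPlane (u i)) (B i) / shadowArea (u i) K →
      c * (⨅ (v : R3) (_ : ‖v‖ = 1), shadowArea v K) ≤ ∑ i, area (orthPlane (u i)) (B i) := by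
    intro c K m u hu B h
    refine (mul_le_mul' h le_rfl).trans ?_
    rw [Finset.sum_mul]
    exact Finset.sum_le_sum fun i _ =>
      (mul_le_mul' le_rfl (iInf₂_le (u i) (hu i))).trans (by rw [mul_comm]; exact ENNReal.mul_div_le)
  constructor
  · obtain ⟨c, hc, hb⟩ := Third.exists_const
    exact ⟨c, hc, fun K hK hK' hint m u hu B hcov =>
      ⟨hb K hK hK' hint m u hu B hcov, conv _ K m u hu B (hb K hK hK' hint m u hu B hcov)⟩⟩
  · intro K hK hK' hint o hsym m u hu B hcov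
    exact ⟨Sym.five_twelfths hK hK' hint hsym u hu B hcov,
      conv _ K m u hu B (Sym.five_twelfths hK hK' hint hsym u hu B hcov)⟩

end Vale.Agent.Results.P243.AboveOneThird
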