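import Mathlib
import Vale.Agent.P243.Main
import Vale.Agent.P243.Defs

/-!
The half-area inequality for cylinder coverings of a convex body in space with coplanar axes,
and its directionwise form for coverings in two directions.
-/

namespace Vale.Agent.Results.P243.CoplanarHalfArea

open MeasureTheory Vale.Agent.P243
open scoped RealInnerProductSpace ENNReal

theorem result (K : Set R3) (hK : IsCompact K) (hc : Convex ℝ K) (hint : (interior K).Nonempty)
    (m : ℕ) (u : Fin m → R3) (hu : ∀ i, ‖u i‖ = 1) (B : ∀ i, Set ↥(orthPlane (u i)))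
    (hcov : K ⊆ ⋃ i, cylinderOver (orthPlane (u i)) (B i)) :
    (∀ e : R3, ‖e‖ = 1 → (∀ i, ⟪u i, e⟫ = 0) →
      (⨅ (v : R3) (_ : ‖v‖ = 1) (_ : ⟪v, e⟫ = 0), shadowArea v K) / 2
        ≤ ∑ i, area (orthPlane (u i)) (B i)) ∧
    (∀ a b : R3, ‖a‖ = 1 → ‖b‖ = 1 → (∀ i, u i = a ∨ u i = -a ∨ u i = b ∨ u i = -b) →
      ENNReal.ofReal (1 / 2) ≤ ∑ i, area (orthPlane (u i)) (B i) / shadowArea (u i) K) :=
  ⟨fun e he hue => coplanar_axes finrank_euclideanSpace_fin hK hc hint e he u hu
      hue B fun x hx => Set.mem_iUnion.1 (hcov hx),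
    fun a b ha hb hab => two_directions finrank_euclideanSpace_fin hK hc hint a b
      ha hb u hab B fun x hx => Set.mem_iUnion.1 (hcov hx)⟩

end Vale.Agent.Results.P243.CoplanarHalfArea
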