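import Vale.Agent.P243.Spheroid.Extremal

/-!
Bang's half-area inequality for all centrally symmetric convex bodies, with a constant above 1/2.
-/

namespace Vale.Agent.Results.P243.SymmetricHalfArea

open MeasureTheory Vale.Agent.P243
open scoped ENNReal Real

theorem result :
    (1 / 2 : ℝ) < π / (4 * √2) ∧
    ∀ (K : Set R3), IsCompact K → Convex ℝ K → (interior K).Nonempty →
      ∀ o : R3, (∀ x ∈ K, (2 : ℝ) • o - x ∈ K) →
        ∀ (m : ℕ) (u : Fin m → R3), (∀ i, ‖u i‖ = 1) → ∀ B : ∀ i, Set ↥(orthPlane (u i)),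
          K ⊆ ⋃ i, cylinderOver (orthPlane (u i)) (B i) →
            ENNReal.ofReal (π / (4 * √2)) * (⨅ (v : R3) (_ : ‖v‖ = 1), shadowArea v K)
              ≤ ∑ i, area (orthPlane (u i)) (B i) :=
  ⟨Spheroid.half_lt_const, fun _ hK hc hint _ hsym _ u hu B hcov =>
    Spheroid.symmetric_bound hK hc hint hsym u hu B hcov⟩

end Vale.Agent.Results.P243.SymmetricHalfArea
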